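import Vale.Agent.P014U.X4F.Rec.Kum
import Vale.Agent.P014T.Rb.Chi

/-! # P014U, block Rb: words, the character of a discrete logarithm -/

set_option autoImplicit false
set_option linter.all false

noncomputable section

namespace Vale.Agent.P014U.Rb

open NumberField
open Vale.Agent.P022 Vale.Agent.P022K
open Vale.Agent.P022D.W (dec inP_le_dec exists_phi)
open Vale.Agent.P022.H443 (inP)
open Vale.Agent.P022E.GW (Ov Fb)
open Vale.Agent.P014U.X4S.Ga (K O d2 d3 Z2 B2)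
open Vale.Agent.P014U.X4S.Aq
open Vale.Agent.P014U.X4F.Rc
open Vale.Agent.P014T.Dr (Hm ex_cy root_cong inert_Hm Hm_open)

export Vale.Agent.P014T.Rb (Co ex_exp)

variable [Pp]

section

variable {M : Type} [AddCommGroup M]

/-- locally constant functions of order `pp ^ n` -/
structure Cn (n : ℕ) (x : GQ → M) : Prop where
  lc : IsLocallyConstant x
  tor : ∀ g, pp ^ n • x g = 0

/-- additive characters modulo `pp ^ n` -/
structure Ch (n : ℕ) (c : GQ → ℕ) : Prop where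
  lc : IsLocallyConstant c
  add : ∀ g h, c (g * h) ≡ c g + c h [MOD pp ^ n]

variable {n : ℕ} {c : GQ → ℕ} {D : Subgroup GQ}

theorem mq_nat (k : ℕ) (u : K) : mq (k * u) = k • mq u := by rw [← map_nsmul, nsmul_eq_mul]

theorem mq_cy (g : GQ) {u v : K} (h : mq u = mq v) : mq (cy g * u) = mq (cy g * v) :=
  mq_eq.2 (O_of (O_mul (O_cy g) (mq_eq.1 h)) (by ring))

theorem mq_mod {u : K} (h : (pp : K) ^ n * u ∈ O) {i j : ℕ} (e : i ≡ j [MOD pp ^ n]) :
    mq (i * u) = mq (j * u) := by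
  obtain ⟨k, e⟩ := e.dvd
  have e' : (j : K) - i = pp ^ n * k := by exact_mod_cast congrArg (Int.cast : ℤ → K) e
  exact mq_eq.2 (O_of (neg_mem (O_mul h (intCast_mem (PadicInt.subring pp) k)))
    (by linear_combination (-u) * e'))

theorem Ch.of {χ : GQ → ZMod (pp ^ n)} (lc : IsLocallyConstant χ)
    (add : ∀ g h, χ (g * h) = χ g + χ h) : Ch n fun g => (χ g).val :=
  ⟨lc.comp _, fun g h => by
    rw [← ZMod.natCast_eq_natCast_iff, Nat.cast_add, ZMod.natCast_zmod_val, ZMod.natCast_zmod_val,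
      ZMod.natCast_zmod_val, add]⟩

theorem Ch.ad (h : Ch n c) : Ad D fun g => hn n * c g :=
  ⟨(h.lc.comp fun k : ℕ => hn n * (k : K)).continuous.continuousOn, fun g _ j _ => by
    have := mq_eq.1 (mq_mod (u := hn n) (O_of O_one (hn_mul n)) (h.add g j))
    exact O_of this (by push_cast; ring)⟩

theorem mq_int (k : ℤ) (u : K) : mq (k * u) = k • mq u := by rw [← map_zsmul, zsmul_eq_mul]

end

variable {n l p : ℕ} {lam : ZMod l → ZMod (pp ^ n)} {χ : GQ → ZMod (pp ^ n)} {P : Ideal (𝓞 Qb)}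
  {g φ : GQ}

/-- `lam` is a logarithm on the units modulo `l` and `χ` is its Galois character -/
structure Lx (l n : ℕ) (lam : ZMod l → ZMod (pp ^ n)) (χ : GQ → ZMod (pp ^ n)) : Prop where
  pr : l.Prime
  mul : ∀ a b, a ≠ 0 → b ≠ 0 → lam (a * b) = lam a + lam b
  eq : ∀ (g : GQ) (a : ℕ), (∀ z : Qb, z ^ l = 1 → g z = z ^ a) → χ g = lam a

theorem ex_lx (hl : l.Prime) (mul : ∀ a b, a ≠ 0 → b ≠ 0 → lam (a * b) = lam a + lam b) :
    ∃ χ, Lx l n lam χ := by
  have := Fact.mk hl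
  obtain ⟨ζ, κ, h1, -, -, h4⟩ := ex_cy l
  exact ⟨fun g => lam (κ g), hl, mul, fun g a e => by rw [h4 g a (e ζ h1.pow_eq_one)]⟩

/-- the value in `K ⧸ O` -/
def lq (lam : ZMod l → ZMod (pp ^ n)) (a : ℤ) : K ⧸ O := mq (hn n * (lam a).val)

theorem mq_val_add (a b : ZMod (pp ^ n)) :
    mq (hn n * (a + b).val) = mq (hn n * a.val) + mq (hn n * b.val) := by
  rw [← map_add, ← mul_add, ← Nat.cast_add, mul_comm, mul_comm (hn n)]
  exact mq_mod (O_of O_one (hn_mul n)) (by rw [ZMod.val_add]; exact Nat.mod_modEq _ _)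

theorem mq_val_zero {a : ZMod (pp ^ n)} : mq (hn n * a.val) = 0 ↔ a = 0 := by
  rw [mq_zero, nat_iff, ← ZMod.natCast_eq_zero_iff, ZMod.natCast_zmod_val]

theorem dvd_val {a : ZMod (pp ^ n)} : pp ^ n ∣ a.val ↔ a = 0 := by
  rw [← ZMod.natCast_eq_zero_iff, ZMod.natCast_zmod_val]

namespace Lx

variable (h : Lx l n lam χ)
include h

theorem one : lam 1 = 0 := by
  have := Fact.mk h.pr
  simpa using h.mul 1 1 one_ne_zero one_ne_zero

theorem add (g j : GQ) : χ (g * j) = χ g + χ j := by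
  obtain ⟨a, a0, ha⟩ := ex_exp h.pr g
  obtain ⟨b, b0, hb⟩ := ex_exp h.pr j
  rw [h.eq g a ha, h.eq j b hb, ← h.mul _ _ a0 b0, ← Nat.cast_mul]
  exact h.eq _ _ fun z hz => by rw [AlgEquiv.mul_apply, hb z hz, map_pow, ha z hz, pow_mul]

theorem hm (m : g ∈ Hm l) : χ g = 0 := by
  rw [h.eq g 1 fun z hz => (m z hz).trans (pow_one z).symm, Nat.cast_one, h.one]

theorem lc : IsLocallyConstant χ :=
  P004S.lc_of_open (Hm_open h.pr.ne_zero) (Hm l).one_mem fun g w m => by rw [h.add, h.hm m, add_zero]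

theorem ch : Ch n fun g => (χ g).val := Ch.of h.lc h.add

theorem nd (o : Ov p P) (pl : p ≠ l) : ¬ p ∣ l := fun d =>
  pl ((Nat.prime_dvd_prime_iff_eq o.1 h.pr).1 d)

theorem ur (o : Ov p P) (pl : p ≠ l) (m : g ∈ inP P) : χ g = 0 := h.hm (inert_Hm o (h.nd o pl) m)

theorem fb (o : Ov p P) (pl : p ≠ l) (f : Fb p P φ) : χ φ = lam p :=
  h.eq φ p fun z hz => root_cong o (h.nd o pl) f hz

/-- the character is trivial on the decomposition group -/
theorem dz (o : Ov p P) (pl : p ≠ l) (e : lam p = 0) (m : g ∈ dec P) : χ g = 0 := by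
  obtain ⟨φ, f⟩ := exists_phi o.1 o.2.1 o.2.2
  exact mq_val_zero.1 (mq_zero.2 (h.ch.ad.unr o f
    (fun i m => mq_zero.1 (mq_val_zero.2 (h.ur o pl m)))
    (mq_zero.1 (mq_val_zero.2 ((h.fb o pl f).trans e))) m))

end Lx

theorem lq_tor (a : ℤ) : pp ^ n • lq lam a = 0 := by
  rw [lq, ← mq_nat, mq_zero]
  exact O_of (O_nat (lam a).val) (by push_cast; rw [← mul_assoc, hn_mul, one_mul])

end Vale.Agent.P014U.Rb
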