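import Vale.Agent.P014U.Rb.Top
import Vale.Agent.P014T.Rb.Dia

/-! # P014U, block Rb: the tame height is a quadratic form, the diagonal case -/

set_option autoImplicit false
set_option linter.all false

open NumberField Real
open scoped Classical

noncomputable section

namespace Vale.Agent.P014U.Rb

open Vale.Agent.P004H.H666 Vale.Agent.P004Z.H Vale.Agent.P014U.X4M.TE
open Vale.Agent.P022D.W (dec inP_le_dec)
open Vale.Agent.P022.H443 (inP)
open Vale.Agent.P022E.GW (Ov)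
open Vale.Agent.P004K (K1)
open Vale.Agent.P014U.X4S.Ga (K O)
open Vale.Agent.P014U.X4S.Aq
open Vale.Agent.P004F (hq)
open Vale.Agent.P014U.X4F.Rc (hn hn_mul mq mq_eq mq_zero O_nat)
open Vale.Agent.P014U.Ki (wp)
open Bx (nu rx dn bx div1 K1s nu_unit ex_av Av unr_pt um lv)
open Vale.Agent.P014T.Wm (Fx)
open Bt (dd Zl)
open Cp (pr ivP Zn)

export Vale.Agent.P014T.Rb (nu_zero ex_k1)

variable [Pp] {A B : ℤ} {n l : ℕ} {lam : ZMod l → ZMod (pp ^ n)} {χ : GQ → ZMod (pp ^ n)}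
  {L P2 : Ideal (𝓞 Qb)} {X Y : Pt A B}

namespace Lx

variable (h : Lx l n lam χ)
include h

theorem imul {a b : ℤ} (ha : ¬ (l : ℤ) ∣ a) (hb : ¬ (l : ℤ) ∣ b) :
    lam (a * b : ℤ) = lam a + lam b := by
  rw [Int.cast_mul, h.mul _ _ (mt (ZMod.intCast_zmod_eq_zero_iff_dvd a l).1 ha)
    (mt (ZMod.intCast_zmod_eq_zero_iff_dvd b l).1 hb)]

/-- an integer all of whose primes have the logarithm zero -/
theorem smooth {a : ℤ} (a0 : ¬ (l : ℤ) ∣ a) (k : ∀ p : ℕ, p.Prime → (p : ℤ) ∣ a → lam p = 0) :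
    2 * lam a = 0 := by
  have lp : Prime (l : ℤ) := Nat.prime_iff_prime_int.1 h.pr
  have f : ∀ m : ℕ, ¬ (l : ℤ) ∣ m → (∀ p : ℕ, p.Prime → (p : ℤ) ∣ m → lam p = 0) →
      lam (m : ℤ) = 0 := fun m => by
    induction m using induction_on_primes with
    | zero => exact fun e => absurd (dvd_zero _) e
    | one => exact fun _ _ => by simpa using h.one
    | prime_mul p m hp ih =>
      intro e j
      rw [Nat.cast_mul] at e j ⊢
      have h2 := mt (dvd_mul_of_dvd_right · (p : ℤ)) e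
      rw [h.imul (mt (dvd_mul_of_dvd_left · (m : ℤ)) e) h2, ih h2 fun q a b => j q a (b.mul_left _),
        Int.cast_natCast, j p hp (dvd_mul_right _ _), add_zero]
  obtain ⟨m, rfl | rfl⟩ := a.eq_nat_or_neg
  · rw [f m a0 k, mul_zero]
  · have n1 : ¬ (l : ℤ) ∣ -1 := by simpa using lp.not_dvd_one
    have m0 : ¬ (l : ℤ) ∣ m := by simpa using a0
    rw [← neg_one_mul, h.imul n1 m0, f m m0 fun p a b => k p a b.neg_right, add_zero, two_mul,
      ← h.imul n1 n1]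
    simpa using h.one

/-- **the tame height is a quadratic form** -/
theorem par (hD : 4 * A ^ 3 + 27 * B ^ 2 ≠ 0) (o : Ov l L)
    (hl : ¬ (l : ℤ) ∣ 2 * pp * (4 * A ^ 3 + 27 * B ^ 2))
    (bad : ∀ p : ℕ, p.Prime → (p : ℤ) ∣ 2 * pp * (4 * A ^ 3 + 27 * B ^ 2) → lam p = 0)
    (fX : ∀ g, ga g X = X) (fY : ∀ g, ga g Y = Y) (kX : K1 L X) (kY : K1 L Y) :
    2 * (lam (nu (X + Y)) + lam (nu (X - Y))) = 4 * (lam (nu X) + lam (nu Y)) := by
  have fS : ∀ g, ga g (X + Y) = X + Y := fun g => by rw [map_add, fX, fY]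
  have fD : ∀ g, ga g (X - Y) = X - Y := fun g => by rw [map_sub, fX, fY]
  have kS : K1 L (X + Y) := (K1s hD o).add_mem kX kY
  have kD : K1 L (X - Y) := (K1s hD o).sub_mem kX kY
  have c0 := cc_ne (Bx.hDb hD) X Y
  have d1 := Bx.den_ne (rx X)
  have d2 := Bx.den_ne (rx Y)
  have d3 := Bx.den_ne (rx (X + Y))
  have d4 := Bx.den_ne (rx (X - Y))
  obtain ⟨r, hr⟩ : ∃ r : ℚ, (r : Qb) = cc X Y * ((rx X).den ^ 2 * (rx Y).den ^ 2) /
      ((rx (X + Y)).den * (rx (X - Y)).den) := P004M.TE.mem_KQ.2 fun g => by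
    simp only [map_div₀, map_mul, map_pow, map_natCast, ← Bx.cc_ga, fX, fY]
  have vi : ∀ {P v}, Av P v → ∀ z : ℤ, v (algebraMap ℚ Qb z) ≤ 1 := fun a z => by
    rw [map_intCast]; exact a.na.apply_intCast_le_one
  have gd : ∀ (q : ℕ) P, Ov q P → ¬ (q : ℤ) ∣ 2 * pp * (4 * A ^ 3 + 27 * B ^ 2) →
      ¬ (q : ℤ) ∣ r.num ∧ ¬ (q : ℤ) ∣ r.den := fun q P o hl => by
    obtain ⟨v, a⟩ := ex_av o
    have hp := Nat.prime_iff_prime_int.1 o.1
    have vD : v (16 * (4 * algebraMap ℚ Qb A ^ 3 + 27 * algebraMap ℚ Qb B ^ 2)) = 1 := by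
      have := (a.int o (2 ^ 3 * (2 * (4 * A ^ 3 + 27 * B ^ 2)))).2 fun k =>
        hg_two hl ((hp.dvd_or_dvd k).elim (fun k => (hp.dvd_of_dvd_pow k).mul_right _) id)
      rw [← this, map_intCast, map_intCast]
      congr 1
      push_cast
      ring
    have e := Bx.par_good a.na (vi a A) (vi a B) vD X Y
    rw [← a.lv_dn o fX, ← a.lv_dn o fY, ← a.lv_dn o fS, ← a.lv_dn o fD] at e
    simp only [dn, map_neg, Bx.lv_um, ne_eq, c0, d1, d2, d3, d4, not_false_eq_true, nsmul_eq_mul] at e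
    have p0 := v.pos c0
    have p1 := v.pos d1
    have p2 := v.pos d2
    have p3 := v.pos d3
    have p4 := v.pos d4
    have e1 : v r = 1 := eq_one_of_pos_of_log_eq_zero (by simp only [hr, map_div₀, map_mul, map_pow]; positivity) (by
      simp only [hr, map_div₀, map_mul, map_pow]
      rw [log_div (by positivity) (by positivity), log_mul (by positivity) (by positivity),
        log_mul (by positivity) (by positivity), log_mul (by positivity) (by positivity),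
        log_pow, log_pow]
      push_cast at e ⊢
      linarith)
    rw [Rat.cast_def, map_div₀, div_eq_one_iff_eq (v.pos (Bx.den_ne r)).ne'] at e1
    rw [← a.int o, ← a.int o, Int.cast_natCast, e1, and_self]
    exact (a.num_den o r).elim e1.symm.trans id
  have sm : ∀ a : ℤ, (a = r.num ∨ a = r.den) → ¬ (l : ℤ) ∣ a ∧ 2 * lam a = 0 := fun a e => by
    have z : ¬ (l : ℤ) ∣ a := by
      rcases e with rfl | rfl
      exacts [(gd l L o hl).1, (gd l L o hl).2]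
    refine ⟨z, h.smooth z fun p hp d => bad p hp (by_contra fun k => ?_)⟩
    obtain ⟨P, op⟩ := P022K.GW.Pl.ex_ov hp
    rcases e with rfl | rfl
    exacts [(gd p P op k).1 d, (gd p P op k).2 d]
  obtain ⟨v, a⟩ := ex_av o
  have e := Bx.par_one a.na (vi a A) (vi a B) (Bx.hDb hD) (a.k1 o kX) (a.k1 o kY)
  have u1 := nu_unit o fX kX
  have u2 := nu_unit o fY kY
  have u3 := nu_unit o fS kS
  have u4 := nu_unit o fD kD
  have lp : Prime (l : ℤ) := Nat.prime_iff_prime_int.1 h.pr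
  have nm : ∀ {x y : ℤ}, ¬ (l : ℤ) ∣ x → ¬ (l : ℤ) ∣ y → ¬ (l : ℤ) ∣ x * y := fun a b c =>
    (lp.dvd_or_dvd c).elim a b
  have z : ∀ {x : ℤ}, ¬ (l : ℤ) ∣ x → (x : Qb) ≠ 0 := fun a => Int.cast_ne_zero.2 fun e =>
    a (e ▸ dvd_zero _)
  obtain ⟨r1, s1⟩ := sm _ (.inl rfl)
  obtain ⟨r2, s2⟩ := sm _ (.inr rfl)
  have u5 := nm r2 (nm (nm u1 u2) (nm u1 u2))
  have e2 : (l : ℤ) ∣ r.num * (nu (X + Y) * nu (X - Y)) - r.den * (nu X * nu Y * (nu X * nu Y)) := by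
    by_contra k
    rw [← a.int o] at k
    refine e.ne ?_
    rw [← k, ← div_one (v (_ : ℤ)), ← (a.int o _).2 u5, ← map_div₀]
    congr 1
    have := z u1
    have := z u2
    have := z r2
    have := Bx.den_ne r
    rw [Rat.cast_def, div_eq_div_iff this (mul_ne_zero d3 d4)] at hr
    rw [Bx.xp_rx fX, Bx.xp_rx fY, Bx.xp_rx fS, Bx.xp_rx fD, Rat.cast_def, Rat.cast_def,
      Rat.cast_def, Rat.cast_def]
    simp only [nu] at *
    push_cast
    field_simp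
    linear_combination (-((rx (X + Y)).num * (rx (X - Y)).num)) * hr
  have e3 := congrArg lam ((ZMod.intCast_eq_intCast_iff_dvd_sub _ _ l).2 e2)
  rw [h.imul r2 (nm (nm u1 u2) (nm u1 u2)), h.imul (nm u1 u2) (nm u1 u2), h.imul u1 u2,
    h.imul r1 (nm u3 u4), h.imul u3 u4] at e3
  linear_combination s2 - s1 - 2 * e3

theorem two (hD : 4 * A ^ 3 + 27 * B ^ 2 ≠ 0) (o : Ov l L)
    (hl : ¬ (l : ℤ) ∣ 2 * pp * (4 * A ^ 3 + 27 * B ^ 2))
    (bad : ∀ p : ℕ, p.Prime → (p : ℤ) ∣ 2 * pp * (4 * A ^ 3 + 27 * B ^ 2) → lam p = 0)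
    (fX : ∀ g, ga g X = X) (kX : K1 L X) : 2 * lam (nu (X + X)) = 8 * lam (nu X) := by
  have := h.par hD o hl bad fX fX kX kX
  rw [sub_self, nu_zero, Int.cast_one, h.one] at this
  linear_combination this

end Lx

theorem lq_two (h : Lx l n lam χ) (hD : 4 * A ^ 3 + 27 * B ^ 2 ≠ 0) (o : Ov l L)
    (hl : ¬ (l : ℤ) ∣ 2 * pp * (4 * A ^ 3 + 27 * B ^ 2))
    (bad : ∀ p : ℕ, p.Prime → (p : ℤ) ∣ 2 * pp * (4 * A ^ 3 + 27 * B ^ 2) → lam p = 0)
    (fX : ∀ g, ga g X = X) (kX : K1 L X) : 2 • lq lam (nu (X + X)) = 8 • lq lam (nu X) := by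
  have e : ∀ (k : ℕ) (a : ZMod (pp ^ n)), mq (hn n * ((k : ZMod (pp ^ n)) * a).val) =
      k • mq (hn n * a.val) := fun k a => by
    induction k with
    | zero => simp
    | succ k ih => rw [Nat.cast_succ, add_mul, one_mul, mq_val_add, ih, succ_nsmul]
  rw [lq, lq, ← e, ← e]
  exact congrArg (fun a : ZMod (pp ^ n) => mq (hn n * a.val)) (by
    exact_mod_cast h.two hD o hl bad fX kX)

/-- **the diagonal case** -/
theorem top1 (hD : 4 * A ^ 3 + 27 * B ^ 2 ≠ 0) (n : ℕ) : ∃ u : ℤ, IsCoprime u (pp : ℤ) ∧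
    ∀ (S : Finset ℕ) (l : ℕ) (lam : ZMod l → ZMod (pp ^ n)) (χ : GQ → ZMod (pp ^ n))
      (L P2 : Ideal (𝓞 Qb)) (o2 : Ov pp P2) (X : Fx A B ⊤) (R' : Pt A B) (k : ℕ)
      (z : GQ → Pt A B), Cp.Sb A B ⊆ S → l ∉ S → Lx l n lam χ → (∀ p ∈ S, p.Prime → lam p = 0) →
      Ov l L → K1 L X.1 → (∀ p ∈ S, p.Prime → p ≠ pp → ∃ V, Ov p V ∧ K1 V X.1) →
      pp ^ n • R' = k • X.1 → IsLocallyConstant z → (∀ g, pp ^ n • z g = 0) →
      (∀ g h, z (g * h) = z g + ga g (z h) + (χ g).val • ga g (ga h R' - R')) →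
      (∀ i ∈ P022K.G2.In (insert l S : Finset ℕ), z i = 0) →
      ∃ m : z ∈ Zl A B (dec P2), (8 * u) • pr (Ki.pr (hq hD)) (ivP o2)
        ⟨X.1, fun g _ => X.2 g trivial⟩ ⟨z, m⟩ = (8 * k) • lq lam (nu X.1) := by
  obtain ⟨u, ou, hu⟩ := top hD n
  refine ⟨u, ou, fun S l lam χ L P2 o2 X R' k z hS lS h l0 o kX dv hR lc tz dz un => ?_⟩
  have f : ∀ g, ga g X.1 = X.1 := fun g => X.2 g trivial
  obtain ⟨m, e⟩ := hu S l lam χ L P2 o2 X X R' k z hS lS h l0 o kX kX (fun p a b c => by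
    obtain ⟨V, v, j⟩ := dv p a b c
    obtain ⟨y, -, y1, y2⟩ := div1 hD v c j (fun g _ => f g) n
    exact ⟨V, v, y, y1, y2⟩) hR lc tz dz un
  have e' := lq_two h hD o (Cp.nd_of (hq hD) o.1 fun j => lS (hS j))
    (fun p a b => l0 p (hS (by_contra fun j => Cp.nd_of (hq hD) a j b)) a) f kX
  refine ⟨m, ?_⟩
  rw [e]
  change _ • (lq lam (nu (X.1 + X.1)) - _ - _) = _
  linear_combination (norm := module) (2 * k) • e'

end Vale.Agent.P014U.Rb
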