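import Vale.Agent.P014U.Rb.Dl
import Vale.Agent.P014U.Iv.Inv

/-! # P014U, block Rb: the formula of Rubin at a tame prime -/

set_option autoImplicit false
set_option linter.all false

noncomputable section

namespace Vale.Agent.P014U.Rb

open NumberField
open Vale.Agent.P022 Vale.Agent.P022K
open Vale.Agent.P022D.W (dec inP_le_dec exists_phi)
open Vale.Agent.P022.H443 (inP)
open Vale.Agent.P022E.GW (Ov Fb)
open Vale.Agent.P014U.X4S.Ga (K O d2 d3 Z2 B2)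
open Vale.Agent.P014U.X4S.Aq
open Vale.Agent.P014U.X4F.Rc
open Vale.Agent.P014U.Sy (ku)
open Vale.Agent.P014U.Iv (Rt Lv cp cp_z2 cp_mul cp_cmp cp_cob rt_int rt_of ex_rt O_cp)

variable [Pp]

/-- what is used of the local invariants -/
structure Iw (ι : Ideal (𝓞 Qb) → (GQ → GQ → K) →+ K ⧸ O) : Prop where
  b2 : ∀ {l P z}, Ov l P → B2 cy (dec P) z → ι P z = 0
  tame : ∀ {l : ℕ} {P φ n θ} {β : Qb}, Ov l P → l ≠ pp → Fb l P φ → β ^ pp ^ n = l → Ad (dec P) θ →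
    Lv (dec P) n θ → (∀ i ∈ inP P, θ i ∈ O) → ι P (cp n θ β) = mq (θ φ)
  rc : ∀ {z}, Z2 cy ⊤ z → ∀ (S : Finset ℕ) (P : ℕ → Ideal (𝓞 Qb)), (∀ p ∈ S, Ov p (P p)) →
    (∀ p, p.Prime → p ∉ S → ∃ Q, Ov p Q ∧ B2 cy (dec Q) z) →
    (∃ w, B2 cy (G2.St (G2.ip w)) z) → ∑ p ∈ S, ι (P p) z = 0

theorem iw : Iw Iv.iv :=
  ⟨Iv.iv_b2, fun o h2 h hβ a b c => Iv.iv_tame o h2 h hβ ⟨a, b, c⟩, Iv.rec⟩

variable {ι : Ideal (𝓞 Qb) → (GQ → GQ → K) →+ K ⧸ O} {z z' : GQ → GQ → K} {p q l n : ℕ}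
  {P Q L P2 : Ideal (𝓞 Qb)} {c : GQ → ℕ} {β β' : Qb}

theorem cp_unr {θ : GQ → K} (o : Ov q Q) (q2 : q ≠ pp) {b : ℤ} (hb : β ^ pp ^ n = b)
    (nd : ¬ (q : ℤ) ∣ b) (ad : Ad ⊤ θ) (lv : Lv ⊤ n θ) (u : ∀ i ∈ inP Q, θ i ∈ O) :
    B2 cy (dec Q) (cp n θ β) := by
  have k : Rt ⊤ n β := rt_int hb fun e => nd (e ▸ dvd_zero _)
  have := unr1 (H := ⊤) (z := cp n θ β) (by simp) o q2 le_top (z2_mono (cp_z2 k ad lv) le_top)
    fun g _ h _ i m => ⟨O_of (O_mul (add_mem (ad.add g trivial i trivial) (u i m))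
      (O_mul (O_cy g) (k.int (g := h) trivial))) (by
        simp only [cp, map_mul, cy_in o q2 m, mul_one]; ring),
      O_of (O_cp (lv g trivial) g (add_mem (k.coc (g := h) (j := i) trivial trivial)
        (O_mul (O_cy h) (Iv.Rt.unr o q2 hb nd m)))) (by simp only [cp]; ring)⟩
  rwa [top_inf_eq] at this

namespace Iw

variable (I : Iw ι)
include I

theorem congr (o : Ov p P) (e : ∀ g ∈ dec P, ∀ j ∈ dec P, z g j - z' g j ∈ O) : ι P z = ι P z' :=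
  sub_eq_zero.1 ((map_sub _ _ _).symm.trans (I.b2 o (b2_zero e)))

theorem fin (hz : Z2 cy ⊤ z) (S : Finset ℕ) (R : ℕ → Ideal (𝓞 Qb)) (o : ∀ p ∈ S, Ov p (R p))
    (h : ∀ p, p.Prime → p ∉ S → ∃ Q, Ov p Q ∧ B2 cy (dec Q) z) : 2 • ∑ p ∈ S, ι (R p) z = 0 := by
  have := I.rc (z2_two hz) S R o (fun p hp m => (h p hp m).imp fun Q k => ⟨k.1, b2_two k.2⟩)
    ⟨.mk em, b2_inf _ hz⟩
  rw [show (fun g j => 2 * z g j) = 2 • z by ext g j; simp] at this
  simpa only [map_nsmul, ← Finset.smul_sum] using this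

theorem one (hz : Z2 cy ⊤ z) (o : Ov p P)
    (h : ∀ r, r.Prime → r ≠ p → ∃ Q, Ov r Q ∧ B2 cy (dec Q) z) : 2 • ι P z = 0 := by
  simpa using I.fin hz {p} (fun _ => P) (by simpa using o) fun r hr m => h r hr (by simpa using m)

theorem two (hz : Z2 cy ⊤ z) (o : Ov p P) (o' : Ov q Q) (ne : p ≠ q)
    (h : ∀ r, r.Prime → r ≠ p → r ≠ q → ∃ Q, Ov r Q ∧ B2 cy (dec Q) z) :
    2 • ι P z + 2 • ι Q z = 0 := by
  have := I.fin hz {p, q} (fun r => if r = p then P else Q) (by simp [o, o', ne.symm])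
    fun r hr m => by
      simp only [Finset.mem_insert, Finset.mem_singleton, not_or] at m
      exact h r hr m.1 m.2
  rwa [Finset.sum_pair ne, if_pos rfl, if_neg ne.symm, nsmul_add] at this

end Iw

/-- the character `c` is ramified at `l` only, trivial at `2`, and `lg` is its value on integers -/
structure Tl (n l : ℕ) (c : GQ → ℕ) (P2 : Ideal (𝓞 Qb)) (lg : ℤ → K ⧸ O) : Prop where
  ch : Ch n c
  o2 : Ov pp P2
  l2 : l ≠ pp
  z2 : ∀ g ∈ dec P2, pp ^ n ∣ c g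
  ur : ∀ p P, Ov p P → p ≠ l → ∀ i ∈ inP P, pp ^ n ∣ c i
  mul : ∀ a b : ℤ, ¬ (l : ℤ) ∣ a → ¬ (l : ℤ) ∣ b → lg (a * b) = lg a + lg b
  two : lg pp = 0
  fb : ∀ p : ℕ, p.Prime → p ≠ pp → p ≠ l → ∃ P φ, Ov p P ∧ Fb p P φ ∧ lg p = mq (hn n * c φ)

theorem lv_c (D : Subgroup GQ) : Lv D n fun g => hn n * c g := fun g _ => lev (O_nat _)

variable {lg : ℤ → K ⧸ O}

theorem Iw.root (I : Iw ι) (h : Ch n c) (o : Ov l L) (k : Rt (dec L) n β) (e : β' ^ pp ^ n = β ^ pp ^ n) :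
    ι L (cp n (fun g => hn n * c g) β') = ι L (cp n (fun g => hn n * c g) β) :=
  sub_eq_zero.1 ((map_sub _ _ _).symm.trans (I.b2 o (cp_cmp k h.ad (lv_c _) one_ne_zero
    (fun g _ => map_one g) (by rw [e, one_pow, mul_one]))))

theorem Iw.mul (I : Iw ι) (o : Ov l L) (k : Rt (dec L) n β) (k' : Rt (dec L) n β') :
    ι L (cp n (fun g => hn n * c g) (β * β')) =
      ι L (cp n (fun g => hn n * c g) β) + ι L (cp n (fun g => hn n * c g) β') :=
  (I.congr o fun g hg j hj => cp_mul k k' (lv_c _) hg hj).trans (map_add _ _ _)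

/-- the tame symbol of an integer -/
theorem Iw.sym (I : Iw ι) (T : Tl n l c P2 lg) (o : Ov l L) {a : ℤ} (nd : ¬ (l : ℤ) ∣ a)
    (hb : β ^ pp ^ n = a) : 2 • ι L (cp n (fun g => hn n * c g) β) = 2 • -lg a := by
  have lp : Prime (l : ℤ) := Nat.prime_iff_prime_int.1 o.1
  let F : ℤ → Prop := fun a => ∀ β : Qb, β ^ pp ^ n = a →
    2 • ι L (cp n (fun g => hn n * c g) β) = 2 • -lg a
  have n1 : ¬ (l : ℤ) ∣ 1 := lp.not_dvd_one
  have l1 : lg 1 = 0 := by simpa using T.mul 1 1 n1 n1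
  have z : ∀ {a : ℤ}, ¬ (l : ℤ) ∣ a → a ≠ 0 := fun h e => h (e ▸ dvd_zero _)
  have f1 : ∀ β : Qb, β ^ pp ^ n = 1 → ι L (cp n (fun g => hn n * c g) β) = 0 := fun β e =>
    I.b2 o (cp_cob T.ch.ad (lv_c _) one_ne_zero (fun g _ => map_one g) (by rw [e, one_pow]))
  have fm : ∀ a b, ¬ (l : ℤ) ∣ a → ¬ (l : ℤ) ∣ b → F a → F b → F (a * b) := fun a b ha hb u v β e => by
    obtain ⟨x, hx⟩ := ex_rt n (a : Qb)
    obtain ⟨y, hy⟩ := ex_rt n (b : Qb)
    have kx : Rt (dec L) n x := rt_int hx (z ha)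
    have ky : Rt (dec L) n y := rt_int hy (z hb)
    rw [I.root T.ch o (kx.mul ky) (by rw [e, mul_pow, hx, hy, Int.cast_mul]), I.mul o kx ky,
      nsmul_add, u x hx, v y hy, T.mul a b ha hb, neg_add, nsmul_add]
  have fn : F (-1) := fun β e => by
    have k : Rt (dec L) n β := rt_int e (by norm_num)
    have n2 : ¬ (l : ℤ) ∣ -1 := by simpa using n1
    rw [two_nsmul, two_nsmul, ← I.mul o k k, ← neg_add, ← T.mul _ _ n2 n2,
      f1 _ (by rw [mul_pow, e]; simp)]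
    simp [l1]
  have fp : ∀ p : ℕ, p.Prime → ¬ (l : ℤ) ∣ p → F p := fun p hp nd β e => by
    have k : Rt ⊤ n β := rt_int e (z nd)
    have hz := cp_z2 k T.ch.ad (lv_c _)
    have pl : p ≠ l := fun h => nd (h ▸ dvd_rfl)
    have b2 : B2 cy (dec P2) (cp n (fun g => hn n * c g) β) := b2_zero fun g hg j _ =>
      O_mul ((nat_iff n _).2 (T.z2 g hg)) (O_mul (O_cy g) (k.int trivial))
    have ot : ∀ r, r.Prime → r ≠ l → r = pp ∨ r ≠ p →
        ∃ Q, Ov r Q ∧ B2 cy (dec Q) (cp n (fun g => hn n * c g) β) := fun r hr rl h => by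
      by_cases r2 : r = pp
      · exact ⟨P2, r2 ▸ T.o2, b2⟩
      · obtain ⟨Q, oq⟩ := GW.Pl.ex_ov hr
        exact ⟨Q, oq, cp_unr oq r2 e (fun d => h.resolve_left r2
          ((Nat.prime_dvd_prime_iff_eq hr hp).1 (by exact_mod_cast d))) T.ch.ad (lv_c _)
          fun i m => (nat_iff n _).2 (T.ur r Q oq rl i m)⟩
    by_cases p2 : p = pp
    · subst p2
      rw [I.one hz o fun r hr rl => ot r hr rl (em _), T.two, neg_zero, nsmul_zero]
    · obtain ⟨P, φ, op, fb, v⟩ := T.fb p hp p2 pl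
      have := I.two hz o op pl.symm fun r hr rl rp => ot r hr rl (Or.inr rp)
      rw [I.tame op p2 fb (by exact_mod_cast e) T.ch.ad (lv_c _)
        (fun i m => (nat_iff n _).2 (T.ur p P op pl i m)), ← v] at this
      exact (eq_neg_of_add_eq_zero_left this).trans (neg_nsmul _ _).symm
  have fk : ∀ k : ℕ, ¬ (l : ℤ) ∣ k → F k := fun k => by
    induction k using induction_on_primes with
    | zero => exact fun h => absurd (dvd_zero _) h
    | one => exact fun _ β e => by rw [f1 β (by simpa using e), Nat.cast_one, l1]; simp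
    | prime_mul p k hp ih =>
      intro h
      rw [Nat.cast_mul] at h ⊢
      have h1 := mt (dvd_mul_of_dvd_left · (k : ℤ)) h
      have h2 := mt (dvd_mul_of_dvd_right · (p : ℤ)) h
      exact fm _ _ h1 h2 (fp p hp h1) (ih h2)
  obtain ⟨k, rfl | rfl⟩ := a.eq_nat_or_neg
  · exact fk k nd β hb
  · have h : ¬ (l : ℤ) ∣ k := by simpa using nd
    have := fm (-1) k (by simpa using n1) h fn (fk k h)
    rw [neg_one_mul] at this
    exact this β hb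

/-- the tame symbol of a rational number -/
theorem Iw.sym' (I : Iw ι) (T : Tl n l c P2 lg) (o : Ov l L) {a b : ℤ} (na : ¬ (l : ℤ) ∣ a)
    (nb : ¬ (l : ℤ) ∣ b) (hb : β ^ pp ^ n * b = a) :
    2 • ι L (cp n (fun g => hn n * c g) β) = 2 • (lg b - lg a) := by
  have b0 : b ≠ 0 := fun e => nb (e ▸ dvd_zero _)
  have a0 : a ≠ 0 := fun e => na (e ▸ dvd_zero _)
  obtain ⟨y, hy⟩ := ex_rt n (b : Qb)
  have k : Rt (dec L) n β := rt_of (eq_div_of_mul_eq (Int.cast_ne_zero.2 b0) hb)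
    (div_ne_zero (Int.cast_ne_zero.2 a0) (Int.cast_ne_zero.2 b0))
    fun g _ => by rw [map_div₀, map_intCast, map_intCast]
  have := I.sym T o na (β := β * y) (by rw [mul_pow, hy, hb])
  rw [I.mul o k (rt_int hy b0), nsmul_add, I.sym T o nb hy] at this
  rw [eq_sub_of_add_eq this]
  abel

variable {M : Type} [AddCommGroup M] {ρ : GQ → M →+ M} {w : M → M → K} {z0 z1 a : GQ → M}
  {φ : GQ → K}

/-- the character and the class of `a` are trivial on `D` -/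
def Bad (ρ : GQ → M →+ M) (n : ℕ) (c : GQ → ℕ) (a : GQ → M) (D : Subgroup GQ) : Prop :=
  (∀ g ∈ D, pp ^ n ∣ c g) ∧ ∃ t, pp ^ n • t = 0 ∧ ∀ g ∈ D, a g = ρ g t - t

/-- everything is unramified at `P` -/
def Good (ρ : GQ → M →+ M) (n : ℕ) (z0 z1 a : GQ → M) (φ : GQ → K) (P : Ideal (𝓞 Qb)) : Prop :=
  ∀ i ∈ inP P, (∀ t : M, pp ^ n • t = 0 → ρ i t = t) ∧ z0 i = 0 ∧ z1 i = 0 ∧ a i = 0 ∧ φ i ∈ O

/-- **the formula of Rubin** -/
theorem Iw.rub (I : Iw ι) (R : Rd ρ w n c z0 z1 a φ) (T : Tl n l c P2 lg) (o : Ov l L)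
    (hl : ∀ g ∈ dec L, a g = 0 ∧ φ g - ku β g ∈ O) {u v : ℤ} (nu : ¬ (l : ℤ) ∣ u)
    (nv : ¬ (l : ℤ) ∣ v) (hb : β ^ pp ^ n * v = u)
    (ot : ∀ p, p.Prime → p ≠ pp → p ≠ l →
      ∃ P, Ov p P ∧ (Bad ρ n c a (dec P) ∨ Good ρ n z0 z1 a φ P)) :
    2 • ι P2 (cu ρ w z1 a) = 2 • (lg v - lg u) := by
  have := I.two R.z2 T.o2 o T.l2.symm fun p hp p2 pl => (ot p hp p2 pl).imp fun P h =>
    ⟨h.1, h.2.elim (fun ⟨e, t, ht, k⟩ => R.bad e ht k) fun k => R.good h.1 p2 fun i m =>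
      ⟨(k i m).1, T.ur p P h.1 pl i m, (k i m).2⟩⟩
  rw [I.congr T.o2 (z' := cu ρ w z1 a) fun g hg j _ =>
      O_of (neg_mem (cx_zero R.lev (T.z2 g hg) j)) (by rw [dl]; ring),
    I.congr o (z' := -cp n (fun g => hn n * c g) β) fun g _ j hj => by
      have k := mq_zero.1 (R.pw.zr (R.c1.tor g))
      refine O_of (sub_mem k (O_mul (O_mul (O_nat (c g)) (O_cy g)) (hl j hj).2)) ?_
      simp only [dl, cu, cx, cp, (hl j hj).1, map_zero, Pi.neg_apply]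
      linear_combination (c g * cy g * ku β j) * hn_mul n,
    map_neg, neg_nsmul, I.sym' T o nu nv hb] at this
  exact eq_of_add_neg_eq_zero this

theorem Tl.pow (T : Tl n l c P2 lg) (lp : l.Prime) {u : ℤ} (nu : ¬ (l : ℤ) ∣ u) (k : ℕ) :
    ¬ (l : ℤ) ∣ u ^ k ∧ lg (u ^ k) = k • lg u := by
  have lp : Prime (l : ℤ) := Nat.prime_iff_prime_int.1 lp
  induction k with
  | zero => exact ⟨by simpa only [pow_zero] using lp.not_dvd_one,
      by simpa using T.mul 1 1 lp.not_dvd_one lp.not_dvd_one⟩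
  | succ k ih =>
    rw [pow_succ, T.mul _ _ ih.1 nu, ih.2, succ_nsmul]
    exact ⟨fun h => (lp.dvd_or_dvd h).elim ih.1 nu, rfl⟩

/-- the cochain `φ` with `d φ = x ∪ a` -/
structure Ph (ρ : GQ → M →+ M) (w : M → M → K) (n : ℕ) (x a : GQ → M) (φ : GQ → K) : Prop where
  tx : ∀ g, pp ^ n • x g = 0
  ca : Cn n a
  co : Co ρ ⊤ a
  cont : Continuous φ
  lev : ∀ g, (pp : K) ^ n * φ g ∈ O
  dφ : ∀ g h, φ g + cy g * φ h - φ (g * h) - w (x g) (ρ g (a h)) ∈ O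

/-- **the formula of Rubin**: the class of `z0` is `k` times the class of `x` -/
theorem Iw.rubk (I : Iw ι) (H : Pw ρ w n) {x : GQ → M} (F : Ph ρ w n x a φ) (T : Tl n l c P2 lg)
    (c1 : Cn n z1) (dz : ∀ g h, z1 (g * h) = z1 g + ρ g (z1 h) + c g • ρ g (z0 h))
    {k : ℕ} {t : M} (ht : pp ^ n • t = 0) (e0 : ∀ g, z0 g = k • x g + (ρ g t - t)) (o : Ov l L)
    (b0 : Rt (dec L) n β) (hl : ∀ g ∈ dec L, a g = 0 ∧ φ g - ku β g ∈ O) {u v : ℤ}
    (nu : ¬ (l : ℤ) ∣ u) (nv : ¬ (l : ℤ) ∣ v) (hb : β ^ pp ^ n * v = u)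
    (ot : ∀ p, p.Prime → p ≠ pp → p ≠ l →
      ∃ P, Ov p P ∧ (Bad ρ n c a (dec P) ∨ Good ρ n x z1 a φ P)) :
    2 • ι P2 (cu ρ w z1 a) = (2 * k) • (lg v - lg u) := by
  have md : ∀ {i j : ℕ} {s : M}, pp ^ n • s = 0 → i ≡ j [MOD pp ^ n] → i • s = j • s :=
    fun {i j s} hs e => by
      rw [← Nat.mod_add_div' i (pp ^ n), ← Nat.mod_add_div' j (pp ^ n), e, add_smul, add_smul,
        mul_smul, mul_smul, hs, smul_zero, smul_zero]
  have m0 : ∀ {i : ℕ} {s : M}, pp ^ n • s = 0 → pp ^ n ∣ i → i • s = 0 := fun hs e =>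
    (md hs (Nat.modEq_zero_iff_dvd.2 e)).trans (zero_smul _ _)
  have R : Rd ρ w n c (fun g => k • x g) (fun g => z1 g - c g • ρ g t) a fun g => k * φ g :=
    ⟨H, T.ch, fun g => by rw [smul_comm, F.tx, smul_zero],
      ⟨c1.lc.sub ((T.ch.lc.prodMk (H.lc t)).comp fun z => z.1 • z.2), fun g => by
        rw [smul_sub, c1.tor, smul_comm, Ki.tor_map ht, smul_zero, sub_zero]⟩, F.ca, F.co,
      fun g h => by
        rw [dz, e0, md (Ki.tor_map ht _) (T.ch.add g h), H.mul]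
        simp only [map_add, map_sub, map_nsmul, smul_add, smul_sub, add_smul]
        abel,
      continuous_const.mul F.cont, fun g => O_of (O_mul (O_nat k) (F.lev g)) (by ring),
      fun g h => by
        have := mq_eq.1 ((H.nl k (F.tx g) (Ki.tor_map (ρ := ρ) (F.ca.tor h) g)).trans (mq_nat _ _).symm)
        exact O_of (sub_mem (O_mul (O_nat k) (F.dφ g h)) this) (by ring)⟩
  have := I.rub R T o (β := β ^ k) (fun g hg => ⟨(hl g hg).1,
      O_of (sub_mem (O_mul (O_nat k) (hl g hg).2) (b0.ku_pow k hg)) (by ring)⟩)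
    (T.pow o.1 nu k).1 (T.pow o.1 nv k).1
    (by rw [← pow_mul, mul_comm k, pow_mul, Int.cast_pow, ← mul_pow, hb, Int.cast_pow])
    fun p hp p2 pl => (ot p hp p2 pl).imp fun P h => ⟨h.1, h.2.imp_right fun G i m =>
      ⟨(G i m).1, by simp only [(G i m).2.1, smul_zero],
        by simp only [(G i m).2.2.1, m0 (Ki.tor_map ht i) (T.ur p P h.1 pl i m), sub_zero],
        (G i m).2.2.2.1, O_mul (O_nat k) (G i m).2.2.2.2⟩⟩
  rw [(T.pow o.1 nu k).2, (T.pow o.1 nv k).2, ← nsmul_sub, ← mul_nsmul',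
    I.congr T.o2 (z' := cu ρ w z1 a) fun g hg j _ => O_of (zero_mem _) (by
      simp only [cu, m0 (Ki.tor_map ht g) (T.z2 g hg), sub_zero, sub_self])] at this
  exact this

theorem Lx.tl {lam : ZMod l → ZMod (pp ^ n)} {χ : GQ → ZMod (pp ^ n)} (h : Lx l n lam χ)
    (o : Ov pp P) (l2 : l ≠ pp) (e : lam pp = 0) : Tl n l (fun g => (χ g).val) P (lq lam) :=
  ⟨h.ch, o, l2, fun g m => dvd_val.2 (h.dz o l2.symm (by exact_mod_cast e) m),
    fun p P o pl i m => dvd_val.2 (h.ur o pl m), fun a b ha hb => by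
      rw [lq, Int.cast_mul, h.mul _ _ (mt (ZMod.intCast_zmod_eq_zero_iff_dvd a l).1 ha)
        (mt (ZMod.intCast_zmod_eq_zero_iff_dvd b l).1 hb), mq_val_add, lq, lq],
    mq_val_zero.2 (by exact_mod_cast e), fun p hp _ pl => by
      obtain ⟨Q, oq⟩ := GW.Pl.ex_ov hp
      obtain ⟨φ, f⟩ := exists_phi oq.1 oq.2.1 oq.2.2
      exact ⟨Q, φ, oq, f, by rw [lq, h.fb oq pl f, Int.cast_natCast]⟩⟩

end Vale.Agent.P014U.Rb
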