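import Vale.Agent.P014U.Rb.Rub
import Vale.Agent.P014U.Bx.Ph
import Vale.Agent.P014U.Cp.Rr

/-! # P014U, block Rb: the formula of Rubin on an elliptic curve -/

set_option autoImplicit false
set_option linter.all false

open scoped Classical

noncomputable section

namespace Vale.Agent.P014U.Rb

open NumberField
open Vale.Agent.P022 Vale.Agent.P022K
open Vale.Agent.P022K.G2 (In)
open Vale.Agent.P022D.W (dec)
open Vale.Agent.P022.H443 (inP)
open Vale.Agent.P022E.GW (Ov)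
open Vale.Agent.P014U.X4S.Ga (K O)
open Vale.Agent.P014U.X4S.Aq
open Vale.Agent.P004F (hq)
open Vale.Agent.P014U.X4F.Rc
open Vale.Agent.P004K (K1)
open Vale.Agent.P004M.TE (Pt ga ga_mul)
open Vale.Agent.P014U.Iv (iv rt_of)
open Bt (dd Zl dd_apply)
open Vale.Agent.P014T.Wm (Fx)
open Cp (Sb Zn zn_dd ivP nd_of)
open Bx (nu nu_unit bx div1 unr_pt K1s)

variable [Pp]

theorem Pw.int {M : Type} [AddCommGroup M] {ρ : GQ → M →+ M} {w : M → M → K} {n : ℕ}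
    (H : Pw ρ w n) (k : ℤ) : Pw ρ (fun x y => k * w x y) n :=
  ⟨H.mul, H.lc, fun a b c => by rw [mq_int, mq_int, mq_int, H.addl a b c, zsmul_add],
    fun a b c => by rw [mq_int, mq_int, mq_int, H.addr a b c, zsmul_add],
    fun g a b => by rw [mul_left_comm, mq_int, mq_int, H.act g a b]⟩

variable {A B : ℤ}

theorem cn_dd {n : ℕ} {x : Pt A B} (h : pp ^ n • x ∈ Fx A B ⊤) : Cn n (dd A B x) :=
  ⟨(Cp.lc_ga x).sub (IsLocallyConstant.const x), fun g => (zn_dd h).tr g trivial⟩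

/-- **the formula of Rubin**: `κ R' + ε z` is a cocycle for `(1 + χ ε) ga` -/
theorem top (hD : 4 * A ^ 3 + 27 * B ^ 2 ≠ 0) (n : ℕ) : ∃ u : ℤ, IsCoprime u (pp : ℤ) ∧
    ∀ (S : Finset ℕ) (l : ℕ) (lam : ZMod l → ZMod (pp ^ n)) (χ : GQ → ZMod (pp ^ n))
      (L P2 : Ideal (𝓞 Qb)) (o2 : Ov pp P2) (P Q : Fx A B ⊤) (R' : Pt A B) (k : ℕ)
      (z : GQ → Pt A B), Sb A B ⊆ S → l ∉ S → Lx l n lam χ → (∀ p ∈ S, p.Prime → lam p = 0) →
      Ov l L → K1 L P.1 → K1 L Q.1 →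
      (∀ p ∈ S, p.Prime → p ≠ pp → ∃ V, Ov p V ∧ ∃ y ∈ Fx A B (dec V), pp ^ n • y = Q.1) →
      pp ^ n • R' = k • P.1 → IsLocallyConstant z → (∀ g, pp ^ n • z g = 0) →
      (∀ g h, z (g * h) = z g + ga g (z h) + (χ g).val • ga g (ga h R' - R')) →
      (∀ i ∈ In (insert l S : Finset ℕ), z i = 0) →
      ∃ m : z ∈ Zl A B (dec P2), (8 * u) • Cp.pr (Ki.pr (hq hD)) (ivP o2) ⟨Q.1, fun g _ => Q.2 g trivial⟩
        ⟨z, m⟩ = (4 * k) • (lq lam (nu (P + Q).1) - lq lam (nu P.1) - lq lam (nu Q.1)) := by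
  obtain ⟨u, ou, hb⟩ := bx hD n
  refine ⟨u, ou, fun S l lam χ L P2 o2 ⟨P, hP⟩ ⟨Q, hQ⟩ R' k z hS lS X l0 o kP kQ dv hR lc tz dz un => ?_⟩
  have H := Ki.pr (hq hD)
  have s2 : pp ∈ S := hS (by_contra fun e => nd_of (hq hD) pp_prime e ((dvd_mul_left _ _).mul_right _))
  have l2 : l ≠ pp := fun e => lS (e ▸ s2)
  obtain ⟨Q', kQ', fQ, rfl⟩ := div1 hD o l2 kQ (fun g _ => hQ g trivial) n
  obtain ⟨P', rfl⟩ := H.dvp n P
  obtain ⟨φ, f1, f2, f3, f4, f5⟩ := hb P' Q' (fun g => hP g trivial) fun g => hQ g trivial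
  obtain ⟨β, b0, b1, b2⟩ := f5 l L o l2 kP kQ' fQ
  have T := X.tl o2 l2 (by exact_mod_cast l0 pp s2 pp_prime)
  have lp : Prime (l : ℤ) := Nat.prime_iff_prime_int.1 o.1
  have nP := nu_unit o (fun g => hP g trivial) kP
  have nQ := nu_unit o (fun g => hQ g trivial) kQ
  have nS := nu_unit o (fun g => add_mem hQ hP g trivial) ((K1s hD o).add_mem kQ kP)
  have nM : ¬ (l : ℤ) ∣ nu (pp ^ n • Q') * nu (pp ^ n • P') := fun e => (lp.dvd_or_dvd e).elim nQ nP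
  have n1 := (T.pow o.1 nM 2).1
  have n2 := (T.pow o.1 nS 2).1
  have ne : ∀ {a : ℤ}, ¬ (l : ℤ) ∣ a → (a : Qb) ≠ 0 := fun h => Int.cast_ne_zero.2 fun e => h (e ▸ dvd_zero _)
  have q : Zn (dec P2) n z := ⟨lc.comp_continuous continuous_subtype_val, fun g m h _ => by
    obtain ⟨c, e⟩ := T.z2 g m
    have t : pp ^ n • (ga h R' - R') = 0 := by
      rw [nsmul_sub, ← map_nsmul, hR, map_nsmul, hP h trivial, sub_self]
    rw [dz, e, mul_comm, mul_smul, Ki.tor_map t, nsmul_zero, add_zero], fun g _ => tz g⟩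
  have key := iw.rubk ((pw_of H n).int (4 * u)) (x := dd A B P') (a := dd A B Q') (φ := φ)
    (z0 := dd A B R') ⟨(cn_dd hP).tor, cn_dd hQ, (zn_dd hQ).co, f1.continuous, f2, fun g j => by
      simpa only [Int.cast_mul, Int.cast_ofNat, dd_apply] using f3 g j⟩ T ⟨lc, tz⟩ dz (k := k) (t := R' - k • P')
    (by rw [nsmul_sub, hR, smul_comm, sub_self])
    (fun g => by simp only [dd_apply, map_sub, map_nsmul, nsmul_sub]; abel) o
    (rt_of (eq_div_of_mul_eq (ne n2) b1) (div_ne_zero (ne n1) (ne n2)) fun g _ => by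
      rw [map_div₀, map_intCast, map_intCast])
    (fun g m => ⟨sub_eq_zero.2 (fQ g m), b2 g m⟩) n1 n2 b1 fun p hp p2 pl => by
      by_cases m : p ∈ S
      · obtain ⟨V, v, y, y1, y2⟩ := dv p m hp p2
        exact ⟨V, v, Or.inl ⟨fun g j => dvd_val.2 (X.dz v pl (l0 p m hp) j), Q' - y,
          by rw [nsmul_sub, y2, sub_self], fun g j => by rw [dd_apply, map_sub, y1 g j]; abel⟩⟩
      · obtain ⟨V, v⟩ := GW.Pl.ex_ov hp
        have nd := nd_of (hq hD) hp fun e => m (hS e)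
        exact ⟨V, v, Or.inr fun i j => ⟨fun t e => unr_pt v nd j (by rw [e, map_zero]),
          sub_eq_zero.2 (unr_pt v nd j (hP i trivial)), un i ⟨p, by simp [pl, m], V, v, j⟩,
          sub_eq_zero.2 (unr_pt v nd j (hQ i trivial)), f4 p V v nd i j⟩⟩
  refine ⟨q.mem, ?_⟩
  have p : Zn (dec P2) n (dd A B Q') := (zn_dd hQ).mono le_top
  rw [Cp.pr_eq H (ivP o2) _ _ rfl q, (ivP o2).eq (Cp.cp_sym H p q)]
  rw [show cu ga (fun x y => ((4 * u : ℤ) : K) * Ki.wp (hq hD) n x y) z (dd A B Q') =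
      (4 * u) • Cp.cp (Ki.wp (hq hD)) n z (dd A B Q') by ext g h; simp [cu, Cp.cp], map_zsmul,
    (T.pow o.1 nM 2).2, (T.pow o.1 nS 2).2, T.mul _ _ nQ nP, add_comm (pp ^ n • Q')] at key
  change _ = _ • (lq lam (nu (pp ^ n • P' + pp ^ n • Q')) - lq lam (nu (pp ^ n • P')) -
    lq lam (nu (pp ^ n • Q')))
  generalize iv P2 _ = x at key ⊢
  generalize lq lam (nu (pp ^ n • P' + pp ^ n • Q')) = a at key ⊢
  generalize lq lam (nu (pp ^ n • P')) = b at key ⊢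
  generalize lq lam (nu (pp ^ n • Q')) = c at key ⊢
  linear_combination (norm := module) key

end Vale.Agent.P014U.Rb
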